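import Vale.Agent.P130.Lebesgue.Defs

/-!
# Free cells and one tube in a cell

A cell `(r, d)` of the modulus `S` and grid `D` consists of the positions of residue `r` in the
interval `[d N / D, (d + 1) N / D)`.
-/

namespace Vale.Agent.P130.Lebesgue.Pack

open Finset

/-- Membership of the position `x` in the cell `q`. -/
def InCell (N S D : ℕ) (q : ℕ × ℕ) (x : ℤ) : Prop :=
  x % (S : ℤ) = (q.1 : ℤ) ∧ (q.2 : ℤ) * N ≤ x * D ∧ x * D < ((q.2 : ℤ) + 1) * N

lemma inCell_unique {N S D : ℕ} {q q' : ℕ × ℕ} {x : ℤ} (h : InCell N S D q x)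
    (h' : InCell N S D q' x) : q = q' := by
  obtain ⟨h1, h2, h3⟩ := h
  obtain ⟨h1', h2', h3'⟩ := h'
  have hN : (0 : ℤ) ≤ N := by positivity
  have e1 : q.2 ≤ q'.2 := by
    by_contra hlt
    have : ((q'.2 : ℤ) + 1) * N ≤ (q.2 : ℤ) * N :=
      mul_le_mul_of_nonneg_right (by omega) hN
    linarith
  have e2 : q'.2 ≤ q.2 := by
    by_contra hlt
    have : ((q.2 : ℤ) + 1) * N ≤ (q'.2 : ℤ) * N :=
      mul_le_mul_of_nonneg_right (by omega) hN
    linarith
  exact Prod.ext (by omega) (le_antisymm e1 e2)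

lemma inCell_range {N S D : ℕ} {q : ℕ × ℕ} {x : ℤ} (hq : q.2 < D) (h : InCell N S D q x) :
    0 ≤ x ∧ x < N := by
  obtain ⟨-, h2, h3⟩ := h
  have hD : (0 : ℤ) < D := by omega
  have h0 : (0 : ℤ) ≤ (q.2 : ℤ) * N := by positivity
  have h4 : ((q.2 : ℤ) + 1) * N ≤ (D : ℤ) * N :=
    mul_le_mul_of_nonneg_right (by omega) (by positivity)
  constructor <;> nlinarith

/-- The cells of the finer modulus and grid inside a cell. -/
def children (S L E : ℕ) (q : ℕ × ℕ) : Finset (ℕ × ℕ) :=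
  (range L ×ˢ range E).image fun ab => (q.1 + S * ab.1, E * q.2 + ab.2)

lemma card_children {S L E : ℕ} {q : ℕ × ℕ} (hS : 0 < S) :
    (children S L E q).card = L * E := by
  rw [children, card_image_of_injective _ ?_, card_product, card_range, card_range]
  intro a b h
  simp only [Prod.mk.injEq, add_right_inj] at h
  exact Prod.ext (Nat.eq_of_mul_eq_mul_left hS h.1) h.2

lemma children_bound {S D L E : ℕ} {q q' : ℕ × ℕ} (hr : q.1 < S) (hd : q.2 < D)
    (h : q' ∈ children S L E q) :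
    q'.1 < S * L ∧ q'.2 < D * E ∧ q'.1 % S = q.1 ∧ q'.2 / E = q.2 := by
  simp only [children, mem_image, mem_product, mem_range] at h
  obtain ⟨⟨a, b⟩, ⟨ha, hb⟩, rfl⟩ := h
  refine ⟨?_, ?_, ?_, ?_⟩
  · have : S * (a + 1) ≤ S * L := Nat.mul_le_mul_left S ha
    simp only [Nat.mul_add, Nat.mul_one] at this
    simp only
    omega
  · have : E * (q.2 + 1) ≤ E * D := Nat.mul_le_mul_left E hd
    simp only [Nat.mul_add, Nat.mul_one] at this
    simp only
    rw [Nat.mul_comm D E]
    omega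
  · simp [Nat.add_mul_mod_self_left, Nat.mod_eq_of_lt hr]
  · simp only
    rw [Nat.mul_add_div (by omega), Nat.div_eq_of_lt hb, Nat.add_zero]

lemma inCell_of_child {N S D L E : ℕ} {q q' : ℕ × ℕ} {x : ℤ} (hr : q.1 < S) (hd : q.2 < D)
    (hE : 0 < E) (hq' : q' ∈ children S L E q) (h : InCell N (S * L) (D * E) q' x) :
    InCell N S D q x := by
  obtain ⟨-, -, hmod, hdiv⟩ := children_bound hr hd hq'
  obtain ⟨h1, h2, h3⟩ := h
  push_cast at h1 h2 h3
  have hN : (0 : ℤ) ≤ N := by positivity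
  have hEz : (0 : ℤ) < E := by exact_mod_cast hE
  have b1 : (E : ℤ) * q.2 ≤ q'.2 := by
    have := Nat.mul_div_le q'.2 E
    rw [hdiv] at this
    exact_mod_cast this
  have b2 : (q'.2 : ℤ) + 1 ≤ (E : ℤ) * (q.2 + 1) := by
    have := Nat.lt_mul_div_succ q'.2 hE
    rw [hdiv] at this
    exact_mod_cast this
  refine ⟨?_, ?_, ?_⟩
  · calc x % (S : ℤ) = (x % ((S : ℤ) * L)) % S := (Int.emod_emod_of_dvd x ⟨L, rfl⟩).symm
      _ = ((q'.1 % S : ℕ) : ℤ) := by rw [h1]; push_cast; rfl
      _ = q.1 := by rw [hmod]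
  · have := mul_le_mul_of_nonneg_right b1 hN
    nlinarith
  · have := mul_le_mul_of_nonneg_right b2 hN
    nlinarith

/-- The naturals in a real interval. -/
lemma card_nat_between (a b : ℝ) (hab : a ≤ b + 1) (s : Finset ℕ)
    (h : ∀ e ∈ s, a ≤ e ∧ (e : ℝ) ≤ b) : (s.card : ℝ) ≤ b - a + 1 := by
  have h1 : s.image (fun e : ℕ => (e : ℤ)) ⊆ Finset.Icc ⌈a⌉ ⌊b⌋ := by
    intro z hz
    simp only [mem_image] at hz
    obtain ⟨e, he, rfl⟩ := hz
    rw [Finset.mem_Icc, Int.ceil_le, Int.le_floor]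
    exact_mod_cast h e he
  have h2 := card_le_card h1
  rw [card_image_of_injective _ Nat.cast_injective, Int.card_Icc] at h2
  have h3 : (s.card : ℝ) ≤ ((⌊b⌋ + 1 - ⌈a⌉).toNat : ℝ) := by exact_mod_cast h2
  rcases le_or_gt 0 (⌊b⌋ + 1 - ⌈a⌉) with hp | hp
  · have h4 : ((⌊b⌋ + 1 - ⌈a⌉).toNat : ℝ) = ((⌊b⌋ + 1 - ⌈a⌉ : ℤ) : ℝ) := by
      exact_mod_cast congrArg (fun z : ℤ => (z : ℝ)) (Int.toNat_of_nonneg hp)
    have := Int.floor_le b
    have := Int.le_ceil a
    push_cast at h4
    linarith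
  · rw [Int.toNat_of_nonpos hp.le, Nat.cast_zero] at h3
    linarith

/-- A multiple of a number in `[0, lam]` lies between `0` and that multiple of `lam`. -/
lemma between {k t lam : ℝ} (h0 : 0 ≤ t) (h1 : t ≤ lam) :
    min 0 (k * lam) ≤ k * t ∧ k * t ≤ max 0 (k * lam) := by
  rcases le_total 0 k with h | h
  · exact ⟨(min_le_left _ _).trans (mul_nonneg h h0),
      (mul_le_mul_of_nonneg_left h1 h).trans (le_max_right _ _)⟩
  · exact ⟨(min_le_right _ _).trans (mul_le_mul_of_nonpos_left h1 h),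
      (mul_nonpos_of_nonpos_of_nonneg h h0).trans (le_max_left _ _)⟩

/-- A position near the middle of a coarse interval lies in it. -/
lemma mem_interval {d E D N x sig : ℝ} (hE : 7 ≤ E) (hN : 0 < N) (hs : |sig| ≤ E / 3)
    (h1 : (d + 1 / 2) * E + min 0 sig - 1 ≤ x * (D * E) / N)
    (h2 : x * (D * E) / N ≤ (d + 1 / 2) * E + max 0 sig + 1) :
    d * N ≤ x * D ∧ x * D < (d + 1) * N := by
  have m1 : -|sig| ≤ min 0 sig := le_min (by simp) (neg_abs_le _)
  have m2 : max 0 sig ≤ |sig| := max_le (abs_nonneg _) (le_abs_self _)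
  have hE0 : 0 < E := by linarith
  have g1 : d * E ≤ x * (D * E) / N := by linarith
  have g2 : x * (D * E) / N < (d + 1) * E := by linarith
  rw [le_div_iff₀ hN] at g1
  rw [div_lt_iff₀ hN] at g2
  constructor
  · refine le_of_mul_le_mul_right ?_ hE0
    linarith
  · refine lt_of_mul_lt_mul_right ?_ hE0.le
    linarith

/-- One tube in a cell, and the finer cells which it does not meet. -/
theorem refine_cell {P : ℕ} (hP : 0 < P) (H : Finset ℤ) (hH : ∀ f ∈ H, f ≠ 0)
    {S D E : ℕ} (hS : 0 < S) (hD : 0 < D) (hE : 7 ≤ E) {lam : ℝ}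
    (hlam0 : 0 ≤ lam)
    (hsmall : ∀ f ∈ H, (S : ℝ) * |(f : ℝ)| * P * lam * D ≤ 1 / 3)
    {q : ℕ × ℕ} (hr : q.1 < S) (hd : q.2 < D) :
    ∃ F' ⊆ children S (P * ∏ f ∈ H, f.natAbs) E q,
      1 / ((S : ℝ) * D) - (H.card : ℝ) * lam - (H.card : ℝ) * (4 / ((S : ℝ) * D * E)) ≤
        (F'.card : ℝ) / (((S * (P * ∏ f ∈ H, f.natAbs) : ℕ) : ℝ) * ((D * E : ℕ) : ℝ)) ∧
      ∃ N₁ : ℕ, ∀ N, N₁ ≤ N → ∃ c : ℤ, ∀ f ∈ H, ∀ l : ℕ, (l : ℝ) < lam * N →
        InCell N S D q (tubePos P c S f l) ∧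
        ∀ q' ∈ F', ¬ InCell N (S * (P * ∏ f ∈ H, f.natAbs)) (D * E) q'
          (tubePos P c S f l) := by
  classical
  set L := P * ∏ f ∈ H, f.natAbs with hLdef
  set qf : ℤ → ℕ := fun f => ∏ g ∈ H.erase f, g.natAbs with hqf
  have hL : ∀ f ∈ H, L = P * f.natAbs * qf f := by
    intro f hf
    rw [hLdef, ← mul_prod_erase H (fun g => g.natAbs) hf, mul_assoc]
  have hqpos : ∀ f, 0 < qf f := fun f =>
    Finset.prod_pos fun g hg => Int.natAbs_pos.2 (hH g (mem_of_mem_erase hg))
  have hLpos : 0 < L := Nat.mul_pos hP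
    (Finset.prod_pos fun g hg => Int.natAbs_pos.2 (hH g hg))
  have hEpos : 0 < E := by omega
  set u : ℝ := ((q.2 : ℝ) + 1 / 2) * E with hu
  set sig : ℤ → ℝ := fun f => (S : ℝ) * f * P * lam * ((D : ℝ) * E) with hsig
  set res : ℤ → Finset ℕ := fun f => (range (qf f)).image
    fun l : ℕ => (((q.1 : ℤ) + S * f * (1 + P * l)) % ((S * L : ℕ) : ℤ)).toNat with hres
  set span : ℤ → Finset ℕ := fun f => (range (D * E)).filter
    fun e : ℕ => u + min 0 (sig f) - 2 ≤ e ∧ (e : ℝ) ≤ u + max 0 (sig f) + 1 with hspan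
  set blocked := H.biUnion fun f => res f ×ˢ span f with hblocked
  refine ⟨children S L E q \ blocked, sdiff_subset, ?_, 3 * (S * L) * (D * E) + 1, ?_⟩
  · have hspan_card : ∀ f ∈ H, ((span f).card : ℝ) ≤ |sig f| + 4 := by
      intro f _
      have hx : max 0 (sig f) - min 0 (sig f) = |sig f| := by
        rcases le_total 0 (sig f) with h | h
        · rw [max_eq_right h, min_eq_left h, abs_of_nonneg h]; ring
        · rw [max_eq_left h, min_eq_right h, abs_of_nonpos h]; ring
      have h0 := abs_nonneg (sig f)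
      have := card_nat_between (u + min 0 (sig f) - 2) (u + max 0 (sig f) + 1)
        (by linarith) (span f) (fun e he => (mem_filter.1 he).2)
      linarith
    have hcard : (children S L E q).card ≤
        (children S L E q \ blocked).card + ∑ f ∈ H, (res f ×ˢ span f).card :=
      calc (children S L E q).card
          ≤ (children S L E q \ blocked).card + blocked.card := by
            rw [card_sdiff_add_card]
            exact card_le_card subset_union_left
        _ ≤ _ := Nat.add_le_add_left card_biUnion_le _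
    rw [card_children hS] at hcard
    have hcard' : (L : ℝ) * E ≤ ((children S L E q \ blocked).card : ℝ) +
        ∑ f ∈ H, ((res f ×ˢ span f).card : ℝ) := by exact_mod_cast hcard
    have hSr : (0 : ℝ) < S := by exact_mod_cast hS
    have hDr : (0 : ℝ) < D := by exact_mod_cast hD
    have hEr : (0 : ℝ) < E := by exact_mod_cast hEpos
    have hLr : (0 : ℝ) < L := by exact_mod_cast hLpos
    have hterm : ∀ f ∈ H, ((res f ×ˢ span f).card : ℝ) ≤
        (lam + 4 / ((S : ℝ) * D * E)) * ((S : ℝ) * L * (D * E)) := by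
      intro f hf
      have h1 : ((res f).card : ℝ) ≤ qf f := by
        have := card_image_le (s := range (qf f))
          (f := fun l : ℕ => (((q.1 : ℤ) + S * f * (1 + P * l)) % ((S * L : ℕ) : ℤ)).toNat)
        rw [card_range] at this
        exact_mod_cast this
      have habs : |sig f| ≤ (S : ℝ) * |(f : ℝ)| * P * |lam| * ((D : ℝ) * E) := by
        rw [hsig]
        simp [abs_mul]
      have h2 := hspan_card f hf
      rw [card_product, Nat.cast_mul]
      have hf1 : (1 : ℝ) ≤ |(f : ℝ)| := by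
        exact_mod_cast Int.one_le_abs (hH f hf)
      have hP1 : (1 : ℝ) ≤ P := by exact_mod_cast hP
      have hLf : (L : ℝ) = P * |(f : ℝ)| * qf f := by
        rw [hL f hf]; push_cast
        rw [Nat.cast_natAbs, Int.cast_abs]
      rw [abs_of_nonneg hlam0] at habs
      calc ((res f).card : ℝ) * (span f).card
          ≤ qf f * ((S : ℝ) * |(f : ℝ)| * P * lam * ((D : ℝ) * E) + 4) :=
            mul_le_mul h1 (by linarith) (by positivity) (by positivity)
        _ ≤ (lam + 4 / ((S : ℝ) * D * E)) * ((S : ℝ) * L * (D * E)) := by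
          have hq0 : (0 : ℝ) ≤ qf f := by positivity
          have : (qf f : ℝ) * 4 ≤ 4 * L := by
            have hPf : (1 : ℝ) ≤ (P : ℝ) * |(f : ℝ)| := one_le_mul_of_one_le_of_one_le hP1 hf1
            rw [hLf]
            nlinarith [mul_le_mul_of_nonneg_right hPf hq0]
          have e : (lam + 4 / ((S : ℝ) * D * E)) * ((S : ℝ) * L * (D * E)) =
              lam * ((S : ℝ) * L * (D * E)) + 4 * L := by
            field_simp
          rw [e, hLf]
          nlinarith
    have hsum : ∑ f ∈ H, ((res f ×ˢ span f).card : ℝ) ≤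
        (H.card : ℝ) * ((lam + 4 / ((S : ℝ) * D * E)) * ((S : ℝ) * L * (D * E))) := by
      calc ∑ f ∈ H, ((res f ×ˢ span f).card : ℝ)
          ≤ ∑ _f ∈ H, (lam + 4 / ((S : ℝ) * D * E)) * ((S : ℝ) * L * (D * E)) :=
            sum_le_sum hterm
        _ = _ := by rw [sum_const, nsmul_eq_mul]
    push_cast
    rw [le_div_iff₀ (by positivity)]
    have e : (1 : ℝ) / ((S : ℝ) * D) * ((S : ℝ) * L * (D * E)) = L * E := by field_simp
    linarith
  · intro N hN
    set T : ℤ := ⌊((q.2 : ℝ) + 1 / 2) * N / D / ((S * L : ℕ) : ℝ)⌋ with hT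
    set c : ℤ := (q.1 : ℤ) + ((S * L : ℕ) : ℤ) * T with hc
    refine ⟨c, fun f hf l hl => ?_⟩
    set x := tubePos P c S f l with hx
    have hSr : (0 : ℝ) < S := by exact_mod_cast hS
    have hDr : (0 : ℝ) < D := by exact_mod_cast hD
    have hEr : (7 : ℝ) ≤ E := by exact_mod_cast hE
    have hSL : (0 : ℝ) < ((S * L : ℕ) : ℝ) := by exact_mod_cast Nat.mul_pos hS hLpos
    have hNr : 3 * ((S : ℝ) * L) * ((D : ℝ) * E) + 1 ≤ N := by exact_mod_cast hN
    have hNpos : (0 : ℝ) < N := lt_of_lt_of_le (by positivity) hNr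
    have hT1 := Int.floor_le (((q.2 : ℝ) + 1 / 2) * N / D / ((S * L : ℕ) : ℝ))
    have hT2 := Int.lt_floor_add_one (((q.2 : ℝ) + 1 / 2) * N / D / ((S * L : ℕ) : ℝ))
    rw [← hT, le_div_iff₀ hSL] at hT1
    rw [← hT, div_lt_iff₀ hSL] at hT2
    push_cast at hT1 hT2
    set off : ℝ := (c : ℝ) - ((q.2 : ℝ) + 1 / 2) * N / D + (S : ℝ) * f with hoff
    have hfL : |(f : ℝ)| ≤ L := by
      have h1 : f.natAbs ≤ L := by
        rw [hL f hf]
        calc f.natAbs = 1 * f.natAbs * 1 := by simp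
          _ ≤ P * f.natAbs * qf f :=
            Nat.mul_le_mul (Nat.mul_le_mul_right _ hP) (hqpos f)
      rw [← Int.cast_abs, ← Nat.cast_natAbs]
      exact_mod_cast h1
    have hoffb : |off| * ((D : ℝ) * E) ≤ N := by
      have hr' : (q.1 : ℝ) ≤ (S : ℝ) * L := by
        have : q.1 ≤ S * L := le_trans hr.le (Nat.le_mul_of_pos_right _ hLpos)
        exact_mod_cast this
      have h0 : (0 : ℝ) ≤ q.1 := by positivity
      have hSf : |(S : ℝ) * f| ≤ (S : ℝ) * L := by
        rw [abs_mul, abs_of_pos hSr]; gcongr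
      have hb : |off| ≤ 3 * ((S : ℝ) * L) := by
        rw [hoff, hc]; push_cast
        rw [abs_le] at hSf ⊢
        constructor <;> nlinarith
      have := mul_le_mul_of_nonneg_right hb (show (0 : ℝ) ≤ (D : ℝ) * E by positivity)
      linarith
    have hxval : (x : ℝ) * ((D : ℝ) * E) / N - u =
        off * ((D : ℝ) * E) / N + (S : ℝ) * f * P * (l / N) * ((D : ℝ) * E) := by
      simp only [hx, tubePos, hoff, hu]
      push_cast
      field_simp
      ring
    have hl0 : (0 : ℝ) ≤ (l : ℝ) / N := by positivity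
    have hl1 : (l : ℝ) / N ≤ lam := by rw [div_le_iff₀ hNpos]; linarith
    have hoff1 : |off * ((D : ℝ) * E) / N| ≤ 1 := by
      rw [abs_div, abs_mul, abs_of_pos hNpos,
        abs_of_nonneg (show (0 : ℝ) ≤ (D : ℝ) * E by positivity), div_le_one hNpos]
      exact hoffb
    rw [abs_le] at hoff1
    have hmid : min 0 (sig f) ≤ (S : ℝ) * f * P * (l / N) * ((D : ℝ) * E) ∧
        (S : ℝ) * f * P * (l / N) * ((D : ℝ) * E) ≤ max 0 (sig f) := by
      have hb := between (k := (S : ℝ) * f * P * ((D : ℝ) * E)) hl0 hl1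
      have e1 : sig f = (S : ℝ) * f * P * ((D : ℝ) * E) * lam := mul_right_comm _ _ _
      have e2 : (S : ℝ) * f * P * (l / N) * ((D : ℝ) * E) =
          (S : ℝ) * f * P * ((D : ℝ) * E) * (l / N) := mul_right_comm _ _ _
      rw [e1, e2]
      exact hb
    have hlow : u + min 0 (sig f) - 1 ≤ (x : ℝ) * ((D : ℝ) * E) / N := by linarith
    have hupp : (x : ℝ) * ((D : ℝ) * E) / N ≤ u + max 0 (sig f) + 1 := by linarith
    refine ⟨⟨?_, ?_⟩, ?_⟩
    · have e : tubePos P c S f l =
          (q.1 : ℤ) + (S : ℤ) * ((L : ℤ) * T + f * (1 + P * l)) := by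
        simp only [tubePos, hc]; push_cast; ring
      rw [hx, e, Int.add_mul_emod_self_left]
      exact Int.emod_eq_of_lt (by positivity) (by exact_mod_cast hr)
    · have hs : |sig f| ≤ (E : ℝ) / 3 := by
        have h2 : |sig f| = (S : ℝ) * |(f : ℝ)| * P * lam * ((D : ℝ) * E) := by
          change |(S : ℝ) * f * P * lam * ((D : ℝ) * E)| = _
          rw [abs_mul, abs_mul, abs_mul, abs_mul, abs_of_pos hSr, Nat.abs_cast,
            abs_of_nonneg hlam0, abs_of_nonneg (show (0 : ℝ) ≤ (D : ℝ) * E by positivity)]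
        rw [h2, ← mul_assoc]
        calc (S : ℝ) * |(f : ℝ)| * P * lam * D * E ≤ 1 / 3 * E :=
              mul_le_mul_of_nonneg_right (hsmall f hf) (by positivity)
          _ = (E : ℝ) / 3 := by ring
      obtain ⟨g1, g2⟩ := mem_interval hEr hNpos hs hlow hupp
      exact ⟨by exact_mod_cast g1, by exact_mod_cast g2⟩
    · intro q' hq' hin
      rw [mem_sdiff] at hq'
      apply hq'.2
      obtain ⟨i1, i2, i3⟩ := hin
      simp only [hblocked, mem_biUnion, mem_product]
      refine ⟨f, hf, ?_, ?_⟩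
      · simp only [hres, mem_image, mem_range]
        refine ⟨l % qf f, Nat.mod_lt _ (hqpos f), ?_⟩
        have hdvd : ((S * L : ℕ) : ℤ) ∣ (x -
            ((q.1 : ℤ) + (S : ℤ) * f * (1 + P * ((l % qf f : ℕ) : ℤ)))) := by
          have hl' : (l : ℤ) = ((l % qf f : ℕ) : ℤ) + (qf f : ℤ) * (l / qf f : ℕ) := by
            exact_mod_cast (Nat.mod_add_div l (qf f)).symm
          have e : x - ((q.1 : ℤ) + (S : ℤ) * f * (1 + P * ((l % qf f : ℕ) : ℤ))) =
              ((S * L : ℕ) : ℤ) * T +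
                (S : ℤ) * f * P * qf f * ((l / qf f : ℕ) : ℤ) := by
            simp only [hx, tubePos, hc]
            rw [hl']
            push_cast
            ring
          rw [e]
          refine dvd_add (dvd_mul_right _ _) (dvd_mul_of_dvd_left ?_ _)
          rw [hL f hf]; push_cast
          obtain ⟨w, hw⟩ : |f| ∣ f := (abs_dvd f f).2 dvd_rfl
          refine ⟨w, ?_⟩
          linear_combination ((S : ℤ) * P * (qf f : ℤ)) * hw
        have hmod : ((q.1 : ℤ) + (S : ℤ) * f * (1 + P * ((l % qf f : ℕ) : ℤ))) %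
            ((S * L : ℕ) : ℤ) = (q'.1 : ℤ) := by
          rw [← i1]
          exact (Int.emod_eq_emod_iff_emod_sub_eq_zero.2
            (Int.emod_eq_zero_of_dvd hdvd)).symm
        rw [hmod, Int.toNat_natCast]
      · simp only [hspan, mem_filter, mem_range]
        have j2 : (q'.2 : ℝ) * N ≤ (x : ℝ) * ((D : ℝ) * E) := by exact_mod_cast i2
        have j3 : (x : ℝ) * ((D : ℝ) * E) < ((q'.2 : ℝ) + 1) * N := by exact_mod_cast i3
        rw [← le_div_iff₀ hNpos] at j2
        rw [← div_lt_iff₀ hNpos] at j3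
        exact ⟨(children_bound hr hd hq'.1).2.1, by linarith, by linarith⟩

end Vale.Agent.P130.Lebesgue.Pack
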